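import Vale.Agent.P337T.Defs
import Vale.Agent.Lib.PolyTime.OfTM2
import Vale.Agent.P337.CH.Basic
import Mathlib.Data.Set.Finite.List

/-!
Compilation of oracle programs into probabilistic oracle Turing machines: the levels of the counting
hierarchy defined by programs are contained in the levels defined by Turing machines.
-/

namespace Vale.Agent.P337T

open Turing Function Vale.Agent.Lib.PolyTime Vale.Agent.Lib.PolyTime.ToTM2

/-! ### Counting words -/

/-- The number of words of length `T` with property `p`. -/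
noncomputable def cw (T : ℕ) (p : List Bool → Prop) : ℕ := {r | r.length = T ∧ p r}.ncard

theorem cw_congr {T : ℕ} {p q : List Bool → Prop} (h : ∀ r, r.length = T → (p r ↔ q r)) :
    cw T p = cw T q := by
  unfold cw
  congr 1
  ext r
  exact and_congr_right (h r)

theorem cw_succ (T : ℕ) (p : List Bool → Prop) :
    cw (T + 1) p = cw T (fun r => p (false :: r)) + cw T (fun r => p (true :: r)) := by
  have hfin : ∀ q : List Bool → Prop, {r | r.length = T ∧ q r}.Finite := fun q =>
    (List.finite_length_eq Bool T).subset fun r hr => hr.1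
  have hinj : ∀ b : Bool, Injective (List.cons b) := fun b _ _ h => (List.cons.inj h).2
  unfold cw
  rw [← Set.ncard_image_of_injective {r | r.length = T ∧ p (false :: r)} (hinj false),
    ← Set.ncard_image_of_injective {r | r.length = T ∧ p (true :: r)} (hinj true),
    ← Set.ncard_union_eq _ ((hfin _).image _) ((hfin _).image _)]
  · congr 1
    ext r
    rcases r with _ | ⟨_ | _, r⟩ <;> simp
  · rw [Set.disjoint_left]
    rintro _ ⟨r, -, rfl⟩ ⟨r', -, h⟩
    simp at h

theorem cw_drop (a n : ℕ) (p : List Bool → Prop) :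
    cw (n + a) (fun r => p (r.drop a)) = 2 ^ a * cw n p := by
  induction a with
  | zero => simp
  | succ a ih =>
    rw [← add_assoc, cw_succ]
    simp only [List.drop_succ_cons]
    rw [ih]
    ring

theorem cw_take (q b : ℕ) (p : List Bool → Prop) :
    cw (b + q) (fun r => p (r.take q)) = 2 ^ b * cw q p := by
  induction q generalizing p with
  | zero =>
    rw [← cw_drop b 0 p, zero_add, add_zero]
    exact cw_congr fun r hr => by rw [List.take_zero, List.drop_of_length_le hr.le]
  | succ q ih =>
    rw [← add_assoc, cw_succ, cw_succ q]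
    simp only [List.take_succ_cons]
    rw [ih (fun r => p (false :: r)), ih (fun r => p (true :: r))]
    ring

theorem cw_reverse (q : ℕ) (p : List Bool → Prop) : cw q (fun r => p r.reverse) = cw q p := by
  unfold cw
  refine Set.ncard_congr (fun r _ => r.reverse) ?_ ?_ ?_
  · rintro r ⟨h1, h2⟩
    exact ⟨by simpa using h1, h2⟩
  · intro r r' _ _ h
    exact List.reverse_injective h
  · rintro r ⟨h1, h2⟩
    exact ⟨r.reverse, ⟨by simpa using h1, by simpa using h2⟩, by simp⟩

/-! ### Deterministic phases -/

namespace Machine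

variable {M : Machine} {A : Set (List Bool)}

theorem foldl_none {c : M.Cfg} (h : c.l = none) (ρ : List Bool) : ρ.foldl (M.step A) c = c := by
  induction ρ with
  | nil => rfl
  | cons b ρ ih =>
    have : M.step A c b = c := by
      unfold step
      rw [h]
    rw [List.foldl_cons, this, ih]

variable (M A) in
/-- The machine goes from `c` to `d` in `n` steps, for all coins. -/
def Det (n : ℕ) (c d : M.Cfg) : Prop := ∀ ρ : List Bool, ρ.length = n → ρ.foldl (M.step A) c = d

theorem Det.drop {n : ℕ} {c d : M.Cfg} (h : M.Det A n c d) {ρ : List Bool} (hρ : n ≤ ρ.length) :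
    ρ.foldl (M.step A) c = (ρ.drop n).foldl (M.step A) d := by
  conv_lhs => rw [← List.take_append_drop n ρ]
  rw [List.foldl_append, h _ (by simpa using hρ)]

theorem Det.trans {m n : ℕ} {c d e : M.Cfg} (h₁ : M.Det A m c d) (h₂ : M.Det A n d e) :
    M.Det A (n + m) c e := by
  intro ρ hρ
  rw [h₁.drop (by omega), h₂ _ (by simp; omega)]

theorem det_one {c d : M.Cfg} (h : ∀ b, M.step A c b = d) : M.Det A 1 c d := by
  intro ρ hρ
  obtain ⟨b, rfl⟩ := List.length_eq_one_iff.1 hρ
  exact h b

end Machine

/-! ### The compiled machine -/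

/-- All oracle calls of the program ask about the stack `T`. -/
def AllQ (T : ℕ) : Prog → Prop
  | .skip => True
  | .push _ _ => True
  | .pop _ => True
  | .query i _ => i = T
  | .seq p q => AllQ T p ∧ AllQ T q
  | .ite _ p q r => AllQ T p ∧ AllQ T q ∧ AllQ T r
  | .loop _ p => AllQ T p

/-- The continuation after the answer `b` of the oracle. -/
def after (b : Bool) : List Prog → List Prog
  | .query _ j :: ks => .push j b :: ks
  | l => l

section

variable (N T c : ℕ) (R : Set (List Prog)) (h0 : [] ∈ R)

/-- The instruction executed at a continuation. An oracle call about a stack other than `T` stands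
for the loop which produces one coin for every bit on the stack `c`. -/
noncomputable def ins (b : Bool) : List Prog →
    TM2.Stmt (fun _ : Fin (N + 1) => Bool) (R ⊕ Option Bool) (Option Bool × R)
  | [] => .halt
  | .skip :: ks => .goto (fun _ => .inl (lab R h0 ks))
  | .push i a :: ks => .push (stk N i) (fun _ => a) (.goto (fun _ => .inl (lab R h0 ks)))
  | .pop i :: ks => .pop (stk N i) (fun v _ => v) (.goto (fun _ => .inl (lab R h0 ks)))
  | .query i j :: ks =>
      if i = T then .load (fun v => (v.1, lab R h0 (.query i j :: ks))) (.goto fun _ => .inr none)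
      else .pop (stk N c) (fun v o => (o, v.2)) (.branch (fun v => v.1.isSome)
        (.push (stk N 1) (fun _ => b) (.goto fun _ => .inl (lab R h0 (.query i j :: ks))))
        (.goto fun _ => .inl (lab R h0 ks)))
  | .seq p q :: ks => .goto (fun _ => .inl (lab R h0 (p :: q :: ks)))
  | .ite i p q r :: ks => .peek (stk N i) (fun v o => (o, v.2))
      (.goto (fun v => .inl (lab R h0 (match v.1 with
        | none => p :: ks
        | some false => q :: ks
        | some true => r :: ks))))
  | .loop i p :: ks => .peek (stk N i) (fun v o => (o, v.2))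
      (.goto (fun v => .inl (lab R h0 (match v.1 with
        | none => ks
        | some _ => p :: .loop i p :: ks))))

/-- The machine. -/
noncomputable def mach (hfin : R.Finite) (st : List Prog) : Machine where
  k := N
  Λ := R ⊕ Option Bool
  σ := Option Bool × R
  finΛ := have := hfin.to_subtype; inferInstance
  finσ := have := hfin.to_subtype; inferInstance
  tape := stk N T
  start := .inl (lab R h0 st)
  query := .inr none
  yes := .inr (some true)
  no := .inr (some false)
  init := (none, ⟨[], h0⟩)
  δ := fun b l => match l with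
    | .inl l => ins N T c R h0 b l.1
    | .inr none => .halt
    | .inr (some a) => .goto fun v => .inl (lab R h0 (after a v.2.1))

variable (hfin : R.Finite) (st : List Prog)

/-- Configurations at a continuation. -/
noncomputable def cfg (l : List Prog) (v : Option Bool × R) (s : ℕ → Word) :
    (mach N T c R h0 hfin st).Cfg := ⟨some (.inl (lab R h0 l)), v, restr N s⟩

variable {N T c R h0 hfin st} {A : Set (List Bool)}

theorem step_cfg {l : List Prog} (hl : l ∈ R) (v : Option Bool × R) (s : ℕ → Word) (b : Bool) :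
    (mach N T c R h0 hfin st).step A (cfg N T c R h0 hfin st l v s) b =
      TM2.stepAux (ins N T c R h0 b l) v (restr N s) := by
  refine (if_neg (show (Sum.inl (lab R h0 l) : R ⊕ Option Bool) ≠ Sum.inr none from
    Sum.inl_ne_inr)).trans ?_
  change TM2.stepAux (ins N T c R h0 b (lab R h0 l).1) v (restr N s) = _
  rw [lab_of_mem hl]

theorem det_cfg {l : List Prog} (hl : l ∈ R) {v : Option Bool × R} {s : ℕ → Word}
    {d : (mach N T c R h0 hfin st).Cfg}
    (h : ∀ b, TM2.stepAux (ins N T c R h0 b l) v (restr N s) = d) :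
    (mach N T c R h0 hfin st).Det A 1 (cfg N T c R h0 hfin st l v s) d :=
  Machine.det_one fun b => (step_cfg hl v s b).trans (h b)

theorem det_query (hcl : ∀ b, ∀ l ∈ R, after b l ∈ R) {j : ℕ} {ks : List Prog}
    (hl : Prog.query T j :: ks ∈ R) (hT : T < N + 1) (hj : j < N + 1) (v : Option Bool × R)
    (s : ℕ → Word) (a : Bool) (ha : a = true ↔ s T ∈ A) :
    ∃ v', (mach N T c R h0 hfin st).Det A 4 (cfg N T c R h0 hfin st (.query T j :: ks) v s)
      (cfg N T c R h0 hfin st ks v' (update s j (a :: s j))) := by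
  set v' : Option Bool × R := (v.1, lab R h0 (.query T j :: ks)) with hv'
  have e1 : (mach N T c R h0 hfin st).Det A 1 (cfg N T c R h0 hfin st (.query T j :: ks) v s)
      ⟨some (.inr none), v', restr N s⟩ := det_cfg hl fun b => by
    simp only [ins, if_true, TM2.stepAux]
    rfl
  have e2 : (mach N T c R h0 hfin st).Det A 1 ⟨some (.inr none), v', restr N s⟩
      ⟨some (.inr (some a)), v', restr N s⟩ := by
    refine Machine.det_one fun b => (if_pos rfl).trans ?_
    have e : restr N s (stk N T) = s T := restr_stk N hT s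
    by_cases h : s T ∈ A
    · have h' : restr N s (mach N T c R h0 hfin st).tape ∈ A := e ▸ h
      rw [if_pos h', ha.2 h]
      rfl
    · have h' : restr N s (mach N T c R h0 hfin st).tape ∉ A := e ▸ h
      rw [if_neg h', show a = false by simpa [h] using ha]
      rfl
  have e3 : (mach N T c R h0 hfin st).Det A 1 ⟨some (.inr (some a)), v', restr N s⟩
      (cfg N T c R h0 hfin st (.push j a :: ks) v' s) := by
    refine Machine.det_one fun b => (if_neg (show (Sum.inr (some a) : R ⊕ Option Bool) ≠
      Sum.inr none by simp)).trans ?_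
    change (⟨some (Sum.inl (lab R h0 (after a (lab R h0 (Prog.query T j :: ks)).1))), v',
      restr N s⟩ : (mach N T c R h0 hfin st).Cfg) = _
    rw [lab_of_mem hl]
    rfl
  have e4 : (mach N T c R h0 hfin st).Det A 1 (cfg N T c R h0 hfin st (.push j a :: ks) v' s)
      (cfg N T c R h0 hfin st ks v' (update s j (a :: s j))) := by
    refine det_cfg (l := .push j a :: ks) (hcl a _ hl) fun b => ?_
    simp only [ins, TM2.stepAux, cfg]
    rw [restr_update N hj, restr_stk N hj]
    rfl
  exact ⟨v', ((e1.trans e2).trans e3).trans e4⟩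

theorem sim (hcl : ∀ b, ∀ l ∈ R, after b l ∈ R) {p : Prog} {s s' : ℕ → Word} {t : ℕ}
    (h : Eval A p s t s') (hq : AllQ T p) (hb : bounded (N + 1) p) (ks : List Prog)
    (hR : reach p ks ⊆ R) (hks : ks ∈ R) (v : Option Bool × R) :
    ∃ n v', n + 1 ≤ 5 * t ∧ (mach N T c R h0 hfin st).Det A n
      (cfg N T c R h0 hfin st (p :: ks) v s) (cfg N T c R h0 hfin st ks v' s') := by
  induction h generalizing ks v with
  | skip s => exact ⟨1, v, by norm_num, det_cfg (hR (self_mem_reach _ _)) fun b => rfl⟩
  | push s i a =>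
    refine ⟨1, v, by norm_num, det_cfg (hR (self_mem_reach _ _)) fun b => ?_⟩
    simp only [ins, TM2.stepAux, cfg]
    rw [restr_update N hb, restr_stk N hb]
    rfl
  | pop s i =>
    refine ⟨1, v, by norm_num, det_cfg (hR (self_mem_reach _ _)) fun b => ?_⟩
    simp only [ins, TM2.stepAux, cfg]
    rw [restr_update N hb, restr_stk N hb]
    rfl
  | query_yes s i j hi =>
    obtain rfl : i = T := hq
    obtain ⟨v', h⟩ := det_query (c := c) (h0 := h0) (hfin := hfin) (st := st) hcl
      (hR (self_mem_reach _ _)) hb.1 hb.2 v s true (by simpa using hi)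
    exact ⟨4, v', by norm_num, h⟩
  | query_no s i j hi =>
    obtain rfl : i = T := hq
    obtain ⟨v', h⟩ := det_query (c := c) (h0 := h0) (hfin := hfin) (st := st) hcl
      (hR (self_mem_reach _ _)) hb.1 hb.2 v s false (by simpa using hi)
    exact ⟨4, v', by norm_num, h⟩
  | @seq p q s s' s'' t t' _ _ ih₁ ih₂ =>
    have hq' : reach q ks ⊆ R := fun x hx => hR (Or.inr (Or.inr hx))
    have hp : reach p (q :: ks) ⊆ R := fun x hx => hR (Or.inr (Or.inl hx))
    obtain ⟨n₁, v₁, hn₁, e₁⟩ := ih₁ hq.1 hb.1 (q :: ks) hp (hq' (self_mem_reach _ _)) v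
    obtain ⟨n₂, v₂, hn₂, e₂⟩ := ih₂ hq.2 hb.2 ks hq' hks v₁
    have e₀ : (mach N T c R h0 hfin st).Det A 1 (cfg N T c R h0 hfin st (.seq p q :: ks) v s)
        (cfg N T c R h0 hfin st (p :: q :: ks) v s) :=
      det_cfg (hR (self_mem_reach _ _)) fun b => rfl
    exact ⟨n₂ + (n₁ + 1), v₂, by omega, (e₀.trans e₁).trans e₂⟩
  | @ite_nil p q r s s' t i hi _ ih =>
    have hp : reach p ks ⊆ R := fun x hx => hR (Or.inr (Or.inl hx))
    obtain ⟨n₁, v₁, hn₁, e₁⟩ := ih hq.1 hb.2.1 ks hp hks (none, v.2)
    have e₀ : (mach N T c R h0 hfin st).Det A 1 (cfg N T c R h0 hfin st (.ite i p q r :: ks) v s)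
        (cfg N T c R h0 hfin st (p :: ks) (none, v.2) s) := by
      refine det_cfg (hR (self_mem_reach _ _)) fun b => ?_
      simp only [ins, TM2.stepAux, restr_stk N hb.1, hi, List.head?_nil, cfg]
      rfl
    exact ⟨n₁ + 1, v₁, by omega, e₀.trans e₁⟩
  | @ite_false p q r s s' t i hi _ ih =>
    have hp : reach q ks ⊆ R := fun x hx => hR (Or.inr (Or.inr (Or.inl hx)))
    obtain ⟨n₁, v₁, hn₁, e₁⟩ := ih hq.2.1 hb.2.2.1 ks hp hks (some false, v.2)
    have e₀ : (mach N T c R h0 hfin st).Det A 1 (cfg N T c R h0 hfin st (.ite i p q r :: ks) v s)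
        (cfg N T c R h0 hfin st (q :: ks) (some false, v.2) s) := by
      refine det_cfg (hR (self_mem_reach _ _)) fun b => ?_
      simp only [ins, TM2.stepAux, restr_stk N hb.1, hi, cfg]
      rfl
    exact ⟨n₁ + 1, v₁, by omega, e₀.trans e₁⟩
  | @ite_true p q r s s' t i hi _ ih =>
    have hp : reach r ks ⊆ R := fun x hx => hR (Or.inr (Or.inr (Or.inr hx)))
    obtain ⟨n₁, v₁, hn₁, e₁⟩ := ih hq.2.2 hb.2.2.2 ks hp hks (some true, v.2)
    have e₀ : (mach N T c R h0 hfin st).Det A 1 (cfg N T c R h0 hfin st (.ite i p q r :: ks) v s)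
        (cfg N T c R h0 hfin st (r :: ks) (some true, v.2) s) := by
      refine det_cfg (hR (self_mem_reach _ _)) fun b => ?_
      simp only [ins, TM2.stepAux, restr_stk N hb.1, hi, cfg]
      rfl
    exact ⟨n₁ + 1, v₁, by omega, e₀.trans e₁⟩
  | @loop_stop p s i hi =>
    refine ⟨1, (none, v.2), by norm_num, det_cfg (hR (self_mem_reach _ _)) fun b => ?_⟩
    simp only [ins, TM2.stepAux, restr_stk N hb.1, hi, List.head?_nil, cfg]
    rfl
  | @loop_step p s s' s'' t t' i hi _ _ ih₁ ih₂ =>
    have hl : Prog.loop i p :: ks ∈ R := hR (self_mem_reach _ _)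
    have hp : reach p (.loop i p :: ks) ⊆ R := fun x hx => hR (Or.inr hx)
    obtain ⟨a, hbh⟩ : ∃ a, (s i).head? = some a := by
      cases hs : s i with
      | nil => exact absurd hs hi
      | cons a w => exact ⟨a, by simp⟩
    obtain ⟨n₁, v₁, hn₁, e₁⟩ := ih₁ hq hb.2 (.loop i p :: ks) hp hl (some a, v.2)
    obtain ⟨n₂, v₂, hn₂, e₂⟩ := ih₂ hq hb ks hR hks v₁
    have e₀ : (mach N T c R h0 hfin st).Det A 1 (cfg N T c R h0 hfin st (.loop i p :: ks) v s)
        (cfg N T c R h0 hfin st (p :: .loop i p :: ks) (some a, v.2) s) := by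
      refine det_cfg hl fun b => ?_
      simp only [ins, TM2.stepAux, restr_stk N hb.1, hbh, cfg]
      rfl
    exact ⟨n₂ + (n₁ + 1), v₂, by omega, (e₀.trans e₁).trans e₂⟩

/-- The phase in which the coins are produced. -/
theorem coins (hT : T ≠ 0) (hc : c < N + 1) (hc1 : c ≠ 1) (h1 : 1 < N + 1) {ks : List Prog}
    (hl : Prog.query 0 0 :: ks ∈ R) (r : List Bool) : ∀ (s : ℕ → Word) (v : Option Bool × R),
      (s c).length = r.length → ∃ v', r.foldl ((mach N T c R h0 hfin st).step A)
        (cfg N T c R h0 hfin st (.query 0 0 :: ks) v s) =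
        cfg N T c R h0 hfin st (.query 0 0 :: ks) v'
          (update (update s c []) 1 (r.reverse ++ s 1)) := by
  induction r with
  | nil =>
    intro s v hs
    refine ⟨v, ?_⟩
    have e : update s c [] = s := by
      rw [← List.length_eq_zero_iff.1 hs, update_eq_self]
    rw [e, List.foldl_nil, List.reverse_nil, List.nil_append, update_eq_self]
  | cons b r ih =>
    intro s v hs
    obtain ⟨a, w, hw⟩ : ∃ a w, s c = a :: w := by
      cases h : s c with
      | nil => simp [h] at hs
      | cons a w => exact ⟨a, w, rfl⟩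
    have e : (mach N T c R h0 hfin st).step A (cfg N T c R h0 hfin st (.query 0 0 :: ks) v s) b =
        cfg N T c R h0 hfin st (.query 0 0 :: ks) (some a, v.2)
          (update (update s c w) 1 (b :: s 1)) := by
      rw [step_cfg hl]
      simp only [ins, if_neg hT.symm, TM2.stepAux, restr_stk N hc, hw, List.head?_cons,
        List.tail_cons, Option.isSome_some, cond_true, cfg]
      rw [← restr_update N hc, restr_stk N h1, ← restr_update N h1, update_of_ne hc1.symm]
      rfl
    obtain ⟨v', h⟩ := ih (update (update s c w) 1 (b :: s 1)) (some a, v.2) (by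
      rw [update_of_ne hc1, update_self]
      simpa [hw] using hs)
    refine ⟨v', ?_⟩
    rw [List.foldl_cons, e, h]
    congr 1
    funext i
    by_cases hi : i = 1
    · subst hi
      simp
    · by_cases hi' : i = c
      · subst hi'
        simp [hi]
      · simp [hi, hi']

theorem coins_end (hT : T ≠ 0) (hc : c < N + 1) {ks : List Prog}
    (hl : Prog.query 0 0 :: ks ∈ R) {s : ℕ → Word} (hs : s c = []) (v : Option Bool × R) :
    (mach N T c R h0 hfin st).Det A 1 (cfg N T c R h0 hfin st (.query 0 0 :: ks) v s)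
      (cfg N T c R h0 hfin st ks (none, v.2) s) := by
  refine det_cfg hl fun b => ?_
  simp only [ins, if_neg hT.symm, TM2.stepAux, restr_stk N hc, hs, List.head?_nil,
    List.tail_nil, Option.isSome_none, cond_false, cfg]
  rw [← restr_update N hc, ← hs, update_eq_self]
  rfl

end

/-! ### Normal form of the oracle calls -/

/-- An oracle call through a separate oracle tape. -/
def askP : Prog := .seq (.cp 0 2 3) (.seq (.query 2 1) (.clear 2))

theorem clean_askP (A : Set Word) : Clean A askP 4 (chi A) (pb 4) := by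
  intro s hs
  have h1 := Runs.cp (A := A) (s := s) (i := 0) (j := 2) (k := 3) (by omega) (by omega) (by omega)
    (hs 3 (by omega) (by omega)) (hs 2 (by omega) (by omega))
  have e1 : s 1 = [] := hs 1 (by omega) (by omega)
  have h2 : Runs A (.query 2 1) (update s 2 (s 0)) 1
      (update (update s 2 (s 0)) 1 (chi A (s 0))) := by
    by_cases h : s 0 ∈ A
    · refine (Eval.query_yes _ 2 1 (by simpa using h)).runs.congr ?_
      simp [chi, h, e1]
    · refine (Eval.query_no _ 2 1 (by simpa using h)).runs.congr ?_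
      simp [chi, h, e1]
  have h3 := Runs.clear (A := A) (s := update (update s 2 (s 0)) 1 (chi A (s 0))) 2
  refine ((h1.seq (h2.seq h3)).congr ?_).mono ?_
  · funext i
    by_cases hi : i = 2
    · subst hi
      simp [hs 2 (by omega) (by omega)]
    · by_cases hi' : i = 1
      · subst hi'
        simp
      · simp [hi, hi']
  · simp only [ne_eq, OfNat.ofNat_ne_one, not_false_eq_true, update_of_ne, update_self, pb]
    generalize (s 0).length = n
    have : (n + 2) ^ 4 = n ^ 4 + 8 * n ^ 3 + 24 * n ^ 2 + 32 * n + 16 := by ring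
    omega

theorem allQ_subst (M : ℕ) (p : Prog) : AllQ (M + 2) (Prog.subst askP M p) := by
  induction p with
  | query i j =>
    simp [Prog.subst, askP, Prog.cp, Prog.mv, Prog.mv2, Prog.clear, Prog.rename, AllQ, rel]
  | seq p q hp hq => exact ⟨hp, hq⟩
  | ite i p q r hp hq hr => exact ⟨hp, hq, hr⟩
  | loop i p hp => exact hp
  | _ => trivial

theorem runs_subst {A : Set Word} {p : Prog} {s s' : ℕ → Word} {t M L : ℕ} (h : Eval A p s t s')
    (hp : p.bound ≤ M) (he : ∀ i, M ≤ i → s i = []) (hL : ∀ i, (s i).length + t ≤ L) :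
    Runs A (Prog.subst askP M p) s (t * (pb 4 L + 5)) s' :=
  h.subst (w := 4) (fun _ _ _ hab ha hb s hsb hs => (clean_askP A).reloc hab ha hb s hsb hs) hp
    (by omega) (fun i h1 _ => he i h1) L fun i _ => hL i

theorem after_after (a b : Bool) (l : List Prog) : after a (after b l) = after b l := by
  unfold after
  split
  · rename_i h
    split at h
    · simp at h
    · rename_i h'
      exact absurd h (h' _ _ _)
  · rfl

/-- Compilation of `PP^A`. -/
theorem PP_subset (A : Set Word) : Vale.Agent.Lib.PolyTime.PP A ⊆ PP A := by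
  rintro L ⟨p, Tm, q, hhalt, hacc⟩
  obtain ⟨u, hu, hu'⟩ := FP.exists_poly q (FP.id (A := A))
  obtain ⟨pu, w, cu, hw, -, hru⟩ := hu.elim
  set p1 : Prog := pu.rename (rel 0 2 1) with hp1
  set M : ℕ := max (max p1.bound p.bound) 3 with hM
  have hM1 : p1.bound ≤ M := by omega
  set P1 : Prog := Prog.subst askP M p1 with hP1
  set P3 : Prog := Prog.subst askP M p with hP3
  obtain ⟨N1, hN1⟩ := exists_bounded P1
  obtain ⟨N3, hN3⟩ := exists_bounded P3
  set N : ℕ := max (max N1 N3) 2 with hN
  have b1 : bounded (N + 1) P1 := bounded_mono (by omega) hN1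
  have b3 : bounded (N + 1) P3 := bounded_mono (by omega) hN3
  set R0 : Set (List Prog) := insert [] (insert [.query 0 0, P3]
    (reach P1 [.query 0 0, P3] ∪ reach P3 [])) with hR0
  set R : Set (List Prog) := R0 ∪ (after false '' R0 ∪ after true '' R0) with hR
  have hfin0 : R0.Finite := (((reach_finite _ _).union (reach_finite _ _)).insert _).insert _
  have hfin : R.Finite := hfin0.union ((hfin0.image _).union (hfin0.image _))
  have h0 : [] ∈ R := Or.inl (Set.mem_insert _ _)
  have hq0 : [Prog.query 0 0, P3] ∈ R := Or.inl (Or.inr (Set.mem_insert _ _))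
  have hr1 : reach P1 [.query 0 0, P3] ⊆ R := fun l hl => Or.inl (Or.inr (Or.inr (Or.inl hl)))
  have hr3 : reach P3 [] ⊆ R := fun l hl => Or.inl (Or.inr (Or.inr (Or.inr hl)))
  have hcl : ∀ b, ∀ l ∈ R, after b l ∈ R := by
    rintro b l (hl | ⟨l, hl, rfl⟩ | ⟨l, hl, rfl⟩)
    · cases b
      · exact Or.inr (Or.inl ⟨l, hl, rfl⟩)
      · exact Or.inr (Or.inr ⟨l, hl, rfl⟩)
    · rw [after_after]
      exact Or.inr (Or.inl ⟨l, hl, rfl⟩)
    · rw [after_after]
      exact Or.inr (Or.inr ⟨l, hl, rfl⟩)
  obtain ⟨Tt, hTt⟩ := PB.exists_polynomial (T := fun n =>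
    5 * (pb cu n * (pb 4 (n + pb cu n) + 5)) + q.eval n +
      5 * (Tm.eval n * (pb 4 (n + q.eval n + Tm.eval n) + 5)) + 1)
    (((((PB.const 5).mul ((PB.pb cu).mul (((PB.pb 4).comp (PB.id.add (PB.pb cu))).add
      (PB.const 5)))).add (PB.of_polynomial q)).add ((PB.const 5).mul ((PB.of_polynomial Tm).mul
        (((PB.pb 4).comp ((PB.id.add (PB.of_polynomial q)).add (PB.of_polynomial Tm))).add
          (PB.const 5))))).add (PB.const 1))
  set Mc : Machine := mach N (M + 2) 2 R h0 hfin [P1, .query 0 0, P3] with hMc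
  refine ⟨Mc, Tt, fun x => ?_⟩
  -- phase 1
  have r1 := hru 0 2 1 (by omega) (by omega) (by omega) (start x []) (by simp [start])
    (fun i h1 _ => by rw [start_apply, if_neg (by omega), if_neg (by omega)])
  have e0 : start x [] 0 = x := by simp [start]
  rw [e0] at r1
  obtain ⟨t1, ht1, r1⟩ := r1
  obtain ⟨t1', ht1', r1'⟩ := runs_subst (M := M) (L := x.length + pb cu x.length) r1 hM1
    (fun i hi => by rw [start_apply, if_neg (by omega), if_neg (by omega)]) (fun i => by
      have : (start x [] i).length ≤ x.length := by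
        rw [start_apply]
        split_ifs <;> simp
      omega)
  obtain ⟨n1, v1, hn1, d1⟩ := sim (c := 2) (h0 := h0) (hfin := hfin) (st := [P1, .query 0 0, P3])
    hcl r1' (allQ_subst M p1) b1 _ hr1 hq0 (none, ⟨[], h0⟩)
  have hn1' : n1 + 1 ≤ 5 * (pb cu x.length * (pb 4 (x.length + pb cu x.length) + 5)) :=
    hn1.trans (Nat.mul_le_mul_left _ (ht1'.trans (Nat.mul_le_mul_right _ ht1)))
  have hT := hTt x.length
  set k := q.eval x.length with hk
  have key : ∀ ρ : List Bool, ρ.length = Tt.eval x.length → (Mc.run A x ρ).l = none ∧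
      (((Mc.run A x ρ).stk 0).head? = some true ↔
        Accepts A p x ((ρ.drop n1).take k).reverse) := by
    intro ρ hρ
    set r := (ρ.drop n1).take k with hr
    have hrl : r.length = k := by
      rw [hr, List.length_take, List.length_drop]
      omega
    obtain ⟨v2, d2⟩ := coins (A := A) (N := N) (T := M + 2) (c := 2) (h0 := h0) (hfin := hfin)
      (st := [P1, .query 0 0, P3]) (by omega) (by omega) (by omega) (by omega) hq0 r
      (update (start x []) 2 (u x)) v1 (by rw [update_self, hu', hrl])
    have es : update (update (update (start x []) 2 (u x)) 2 []) 1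
        (r.reverse ++ update (start x []) 2 (u x) 1) = start x r.reverse := by
      funext i
      by_cases hi : i = 1
      · subst hi
        simp [start]
      · by_cases hi' : i = 2
        · subst hi'
          simp [start]
        · simp [start, hi, hi']
    rw [es] at d2
    have d3 := coins_end (A := A) (N := N) (T := M + 2) (c := 2) (h0 := h0) (hfin := hfin)
      (st := [P1, .query 0 0, P3]) (by omega) (by omega) hq0 (s := start x r.reverse)
      (by simp [start]) v2
    obtain ⟨t3, s3, r3, ht3⟩ := hhalt x r.reverse (by rw [List.length_reverse, hrl])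
    obtain ⟨t3', ht3', r3'⟩ := runs_subst (M := M) (L := x.length + k + Tm.eval x.length) r3
      (by omega) (fun i hi => by rw [start_apply, if_neg (by omega), if_neg (by omega)])
      (fun i => by
        have : (start x r.reverse i).length ≤ x.length + k := by
          rw [start_apply]
          split_ifs <;> simp [hrl]
        omega)
    obtain ⟨n3, v3, hn3, d4⟩ := sim (c := 2) (h0 := h0) (hfin := hfin)
      (st := [P1, .query 0 0, P3]) hcl r3' (allQ_subst M p) b3 _ hr3 h0 (none, v2.2)
    have hn3' : n3 + 1 ≤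
        5 * (Tm.eval x.length * (pb 4 (x.length + k + Tm.eval x.length) + 5)) :=
      hn3.trans (Nat.mul_le_mul_left _ (ht3'.trans (Nat.mul_le_mul_right _ ht3)))
    have d5 : Mc.Det A 1 (cfg N (M + 2) 2 R h0 hfin [P1, .query 0 0, P3] [] v3 s3)
        ⟨none, v3, restr N s3⟩ := det_cfg h0 fun b => rfl
    have efirst : Mc.run A x ρ = ρ.foldl (Mc.step A) (cfg N (M + 2) 2 R h0 hfin
        [P1, .query 0 0, P3] [P1, .query 0 0, P3] (none, ⟨[], h0⟩) (start x [])) := by
      unfold Machine.run cfg
      congr 2
      funext i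
      by_cases hi : i = 0
      · subst hi
        rw [if_pos rfl]
        exact e0.symm
      · rw [if_neg hi]
        have : (i : ℕ) ≠ 0 := fun e => hi (Fin.ext e)
        simp [restr, start, this]
    have efin : Mc.run A x ρ = ⟨none, v3, restr N s3⟩ := by
      rw [efirst, d1.drop (by omega), ← List.take_append_drop k (ρ.drop n1), List.foldl_append,
        ← hr, d2, ((d3.trans d4).trans d5).drop (by simp only [List.length_drop]; omega),
        Machine.foldl_none rfl]
    rw [efin]
    refine ⟨rfl, ?_⟩
    change (s3 0).head? = some true ↔ _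
    constructor
    · intro h
      exact ⟨t3, s3, r3, h⟩
    · rintro ⟨t, s, h1, h2⟩
      rwa [(r3.det h1).2]
  refine ⟨fun ρ hρ => (key ρ hρ).1, ?_⟩
  obtain ⟨b, hb⟩ : ∃ b, Tt.eval x.length = (b + k) + n1 := ⟨Tt.eval x.length - n1 - k, by omega⟩
  have hcount : cw (Tt.eval x.length) (fun ρ => ((Mc.run A x ρ).stk 0).head? = some true) =
      2 ^ n1 * (2 ^ b * cw k (Accepts A p x)) := by
    rw [cw_congr fun ρ hρ => (key ρ hρ).2, hb,
      cw_drop n1 (b + k) fun ρ => Accepts A p x (ρ.take k).reverse,
      cw_take k b fun ρ => Accepts A p x ρ.reverse, cw_reverse]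
  rw [hacc]
  change 2 ^ k < 2 * cw k (Accepts A p x) ↔ _ < 2 * cw _ _
  rw [hcount, hb, show 2 * (2 ^ n1 * (2 ^ b * cw k (Accepts A p x))) =
    2 ^ (b + n1) * (2 * cw k (Accepts A p x)) by ring,
    show 2 ^ (b + k + n1) = 2 ^ (b + n1) * 2 ^ k by ring, Nat.mul_lt_mul_left (by positivity)]

theorem polyTime_iff {f : List Bool → List Bool} : PolyTime f ↔ PolyTimeFun ∅ f :=
  ⟨fun ⟨M, _⟩ => polyTimeFun_iff.2 (OfTM2.FP_of_tm2 M),
    fun h => exists_tm2_of_polyTimeFun _ _ f f h fun _ => rfl⟩

theorem C_subset (j : ℕ) : Vale.Agent.Lib.PolyTime.C j ⊆ C j := by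
  induction j with
  | zero =>
    intro L hL
    exact ⟨chi L, polyTime_iff.2 (polyTimeFun_iff.2 (mem_P_iff.1 hL)), fun x => by simp [chi]⟩
  | succ j ih =>
    intro L hL
    obtain ⟨A, hA, h⟩ := Vale.Agent.P337.mem_C_succ.1 hL
    exact Set.mem_biUnion (ih hA) (PP_subset A h)

end Vale.Agent.P337T
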