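import Mathlib.Computability.TuringMachine.Computable
import Mathlib.Data.Real.Basic
import Mathlib.Data.Set.Card

/-!
The existential theory of the reals as a language of binary words, the class `∃ℝ`, probabilistic
oracle Turing machines, and the counting hierarchy.
-/

namespace Vale.Agent.P337T

open Turing

/-! ### The existential theory of the reals -/

/-- Integer polynomials in `n` variables, given as explicit lists of monomials; a monomial is an
integer coefficient together with an exponent vector. -/
abbrev Poly (n : ℕ) : Type := List (ℤ × (Fin n → ℕ))

/-- The value of a polynomial at a real point. -/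
noncomputable def Poly.eval {n : ℕ} (p : Poly n) (x : Fin n → ℝ) : ℝ :=
  (p.map fun m => (m.1 : ℝ) * ∏ i, x i ^ m.2 i).sum

/-- Boolean formulas built with NOT, AND, OR from atoms `p = 0` and `p > 0`. -/
inductive Formula (n : ℕ) : Type
  | eq (p : Poly n)
  | pos (p : Poly n)
  | not (φ : Formula n)
  | and (φ ψ : Formula n)
  | or (φ ψ : Formula n)

/-- The formula is true at the real point `x`. -/
def Formula.Holds {n : ℕ} (x : Fin n → ℝ) : Formula n → Prop
  | .eq p => p.eval x = 0
  | .pos p => 0 < p.eval x
  | .not φ => ¬ φ.Holds x
  | .and φ ψ => φ.Holds x ∧ ψ.Holds x
  | .or φ ψ => φ.Holds x ∨ ψ.Holds x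

/-- Code of a pair of words: every bit of the first word is preceded by `true`, then `false`, then
the second word. -/
def pair : List Bool → List Bool → List Bool
  | [], y => false :: y
  | b :: x, y => true :: b :: pair x y

/-- Code of a list of words: iterated pairs. -/
def listCode : List (List Bool) → List Bool
  | [] => []
  | w :: l => pair w (listCode l)

/-- A natural number in unary. -/
def unary (k : ℕ) : List Bool := List.replicate k true

/-- An integer in binary: the sign bit and the binary digits of the absolute value. -/
def intCode (z : ℤ) : List Bool := pair [decide (z < 0)] z.natAbs.bits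

/-- A monomial: the coefficient in binary, the exponents in unary. -/
def monoCode {n : ℕ} (m : ℤ × (Fin n → ℕ)) : List Bool :=
  pair (intCode m.1) (listCode (List.ofFn fun i => unary (m.2 i)))

/-- A polynomial: the list of its monomials. -/
def polyCode {n : ℕ} (p : Poly n) : List Bool := listCode (p.map monoCode)

/-- The symbols of a formula in Polish order; each symbol is a tag together with the code of the
polynomial for an atom, and with the empty word for a connective. -/
def Formula.symbols {n : ℕ} : Formula n → List (List Bool)
  | .eq p => [pair (unary 0) (polyCode p)]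
  | .pos p => [pair (unary 1) (polyCode p)]
  | .not φ => pair (unary 2) [] :: φ.symbols
  | .and φ ψ => pair (unary 3) [] :: (φ.symbols ++ ψ.symbols)
  | .or φ ψ => pair (unary 4) [] :: (φ.symbols ++ ψ.symbols)

/-- Code of the sentence `∃ x ∈ ℝⁿ, φ(x)`: the number of variables and the list of symbols. -/
def sentenceCode (n : ℕ) (φ : Formula n) : List Bool := pair (unary n) (listCode φ.symbols)

/-- The existential theory of the reals: the codes of the true existential sentences. -/
def ETR : Set (List Bool) :=
  {w | ∃ (n : ℕ) (φ : Formula n), w = sentenceCode n φ ∧ ∃ x : Fin n → ℝ, φ.Holds x}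

/-! ### Polynomial time -/

/-- The function `f` on binary words is computed in polynomial time by a Turing machine of Mathlib
with finite alphabets. -/
def PolyTime (f : List Bool → List Bool) : Prop :=
  ∃ M : TM2ComputableInPolyTime (fun w : List Bool => w) (fun w : List Bool => w) f,
    ∀ k, Finite (M.tm.Γ k)

/-- The class `P`. -/
def P : Set (Set (List Bool)) := {L | ∃ f, PolyTime f ∧ ∀ x, x ∈ L ↔ f x = [true]}

/-- The class `∃ℝ`: languages that are polynomial time many-one reducible to `ETR`. -/
def ExistsR : Set (Set (List Bool)) := {L | ∃ f, PolyTime f ∧ ∀ x, x ∈ L ↔ f x ∈ ETR}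

/-! ### Probabilistic oracle Turing machines and the counting hierarchy -/

/-- A probabilistic oracle Turing machine. It has the stacks `0, …, k` of bits, a finite set `Λ`
of states, a finite memory `σ`, and two transition functions `δ false` and `δ true`, whose values
are instructions of the stack machines `Turing.TM2` of Mathlib. The stack `tape` is the oracle
tape; `query`, `yes`, `no` are the three special states of an oracle machine. -/
structure Machine where
  k : ℕ
  Λ : Type
  σ : Type
  finΛ : Finite Λ
  finσ : Finite σ
  tape : Fin (k + 1)
  start : Λ
  query : Λ
  yes : Λ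
  no : Λ
  init : σ
  δ : Bool → Λ → TM2.Stmt (fun _ : Fin (k + 1) => Bool) Λ σ

namespace Machine

/-- Configurations: the state (`none` if the machine has stopped), the memory, the stacks. -/
abbrev Cfg (M : Machine) : Type := TM2.Cfg (fun _ : Fin (M.k + 1) => Bool) M.Λ M.σ

open Classical in
/-- One step with the oracle `A`, when the coin of this step shows `b`. In the state `query` the
machine moves to `yes` or to `no`, according to whether the word on the oracle tape is in `A`; in
any other state it follows the transition function `δ b`. -/
noncomputable def step (M : Machine) (A : Set (List Bool)) (c : M.Cfg) (b : Bool) : M.Cfg :=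
  match c.l with
  | none => c
  | some l =>
    if l = M.query then ⟨some (if c.stk M.tape ∈ A then M.yes else M.no), c.var, c.stk⟩
    else TM2.stepAux (M.δ b l) c.var c.stk

/-- The configuration reached on input `x` (on stack `0`, the other stacks are empty) after one step
for each of the coins `ρ`. -/
noncomputable def run (M : Machine) (A : Set (List Bool)) (x ρ : List Bool) : M.Cfg :=
  ρ.foldl (M.step A) ⟨some M.start, M.init, fun i => if i = 0 then x else []⟩

end Machine

/-- The class `PP^A`: some machine with oracle `A` stops on every input `x` within `T (|x|)` steps
for all outcomes of the coins, `T` a polynomial, and accepts (top bit `true` on stack `0`) for more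
than half of the outcomes exactly when `x ∈ L`. -/
def PP (A : Set (List Bool)) : Set (Set (List Bool)) :=
  {L | ∃ (M : Machine) (T : Polynomial ℕ), ∀ x : List Bool,
    (∀ ρ : List Bool, ρ.length = T.eval x.length → (M.run A x ρ).l = none) ∧
    (x ∈ L ↔ 2 ^ T.eval x.length < 2 * {ρ : List Bool | ρ.length = T.eval x.length ∧
      ((M.run A x ρ).stk 0).head? = some true}.ncard)}

/-- The levels of the counting hierarchy: `C₀ = P`, `C_{j+1} = ⋃_{A ∈ C_j} PP^A`. -/
def C : ℕ → Set (Set (List Bool))
  | 0 => P
  | j + 1 => ⋃ A ∈ C j, PP A

/-- The counting hierarchy. -/
def CH : Set (Set (List Bool)) := ⋃ j, C j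

end Vale.Agent.P337T
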