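import Vale.Agent.P337T.Compile
import Vale.Agent.P337.Final

/-!
Transfer of the main theorem to the Turing machine model.
-/

namespace Vale.Agent.P337T

open Vale.Agent.Lib.PolyTime

theorem pair_eq : pair = P337.pair := by
  funext x y
  induction x with
  | nil => rfl
  | cons b x ih => simp [pair, P337.pair, ih]

theorem listCode_eq : listCode = P337.listCode := by
  funext l
  induction l with
  | nil => rfl
  | cons b x ih => simp [listCode, P337.listCode, ih, pair_eq]

theorem polyCode_eq {n : ℕ} (p : Poly n) : polyCode p = P337.polyCode p := by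
  unfold polyCode P337.polyCode monoCode P337.monoCode intCode P337.intCode
  rw [pair_eq, listCode_eq]
  rfl

/-- Translation of formulas. -/
def conv {n : ℕ} : Formula n → P337.Formula n
  | .eq p => .eq p
  | .pos p => .pos p
  | .not φ => .not (conv φ)
  | .and φ ψ => .and (conv φ) (conv ψ)
  | .or φ ψ => .or (conv φ) (conv ψ)

theorem conv_surjective {n : ℕ} (φ : P337.Formula n) : ∃ ψ : Formula n, conv ψ = φ := by
  induction φ with
  | eq p => exact ⟨.eq p, rfl⟩
  | pos p => exact ⟨.pos p, rfl⟩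
  | not φ ih =>
    obtain ⟨ψ, rfl⟩ := ih
    exact ⟨.not ψ, rfl⟩
  | and φ φ' ih ih' =>
    obtain ⟨ψ, rfl⟩ := ih
    obtain ⟨ψ', rfl⟩ := ih'
    exact ⟨.and ψ ψ', rfl⟩
  | or φ φ' ih ih' =>
    obtain ⟨ψ, rfl⟩ := ih
    obtain ⟨ψ', rfl⟩ := ih'
    exact ⟨.or ψ ψ', rfl⟩

theorem symbols_conv {n : ℕ} (φ : Formula n) : (conv φ).symbols = φ.symbols := by
  induction φ with
  | eq p => rw [conv, P337.Formula.symbols, Formula.symbols, polyCode_eq, pair_eq]; rfl
  | pos p => rw [conv, P337.Formula.symbols, Formula.symbols, polyCode_eq, pair_eq]; rfl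
  | not φ ih => rw [conv, P337.Formula.symbols, Formula.symbols, ih, pair_eq]; rfl
  | and φ ψ ih ih' => rw [conv, P337.Formula.symbols, Formula.symbols, ih, ih', pair_eq]; rfl
  | or φ ψ ih ih' => rw [conv, P337.Formula.symbols, Formula.symbols, ih, ih', pair_eq]; rfl

theorem sentenceCode_conv (n : ℕ) (φ : Formula n) :
    P337.sentenceCode n (conv φ) = sentenceCode n φ := by
  rw [P337.sentenceCode, sentenceCode, symbols_conv, pair_eq, listCode_eq]
  rfl

theorem holds_conv {n : ℕ} (x : Fin n → ℝ) (φ : Formula n) : (conv φ).Holds x ↔ φ.Holds x := by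
  induction φ with
  | eq p => exact Iff.rfl
  | pos p => exact Iff.rfl
  | not φ ih => exact not_congr ih
  | and φ ψ ih ih' => exact and_congr ih ih'
  | or φ ψ ih ih' => exact or_congr ih ih'

theorem ETR_eq : ETR = P337.ETR := by
  ext w
  constructor
  · rintro ⟨n, φ, rfl, x, hx⟩
    exact ⟨n, conv φ, (sentenceCode_conv n φ).symm, x, (holds_conv x φ).2 hx⟩
  · rintro ⟨n, φ, rfl, x, hx⟩
    obtain ⟨ψ, rfl⟩ := conv_surjective φ
    exact ⟨n, ψ, sentenceCode_conv n ψ, x, (holds_conv x ψ).1 hx⟩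

theorem ETR_mem_CH : ETR ∈ CH := by
  obtain ⟨j, hj⟩ := P337.mem_CH.1 P337.ETR_mem_CH
  rw [ETR_eq]
  exact Set.mem_iUnion.2 ⟨j, C_subset j hj⟩

theorem exists_existsR_subset : ∃ j, ExistsR ⊆ C j := by
  obtain ⟨j, hj⟩ := P337.exists_existsR_subset
  refine ⟨j, ?_⟩
  rintro L ⟨f, hf, hL⟩
  exact C_subset j (hj ⟨f, polyTime_iff.1 hf, fun x => by rw [hL, ETR_eq]⟩)

end Vale.Agent.P337T
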